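import Vale.Agent.Q352.IfS

namespace Vale.Agent.Results.P352.A000Conf

open Vale.Agent.Q352

/-- **Scale invariance implies conformal invariance for regular theories.**

Setting. `Frame`: a Hilbert space with the vacuum, the grading `(-1)^F` and a unitary positive energy
representation of the Poincaré group and the dilations. `Theory`: Wightman fields on a common
invariant domain, with a cyclic vacuum, local in the graded sense.

Hypotheses (`S.Hys`). `T` is a symmetric conserved stress tensor whose charges generate the
translations and the Lorentz transformations, and the charge of the local current
`x^n T_{mn} - J_m`, `J` a virial current, generates the dilations (not needed if the symmetry is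
unbroken, or the vacuum is unique). One of the standard regularity conditions holds (`S.Rgl`): a
Haag-Kastler net, or energy bounds, or an analytic vacuum. The defining fields form a covariant space
of countable dimension; or they have finite spin (not needed if they are affiliated to a net: then it
is enough that the Lorentz transforms of fields are fields) and finite scaling support, logarithms
are allowed (only needed for `T` if the fields obey polynomial energy bounds and their dilates are
linear combinations of fields).

Conclusion (`S.Cfm`). All fields that are local relative to the defining fields form a theory `R`.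
It contains the improvement `t = S + (∂∂ - η □) L`, which is symmetric, conserved and traceless and
has the translation and Lorentz charges of `T`. The charges of the currents `X^n t_{mn}` act on all
fields of `R` by the infinitesimal conformal transformations and obey the conformal Ward identities.
If all defining fields have finite scaling support (`S.Full`), the charges generate a unitary action
of the conformal group on the Hilbert space, the defining fields are sums of derivatives of
primaries, and `L` is a defining field if the fields can be reconstructed from a net.

The hypotheses are not vacuous: each alternative holds in a theory with a stress tensor whose trace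
does not annihilate the vacuum. -/
theorem result :
    (∀ (H : Type*) [NormedAddCommGroup H] [InnerProductSpace ℂ H] [CompleteSpace H] (K : Frame H)
      (Q : Theory K) (T : Fin 4 → Fin 4 → Fld H), S.Hys Q T → ∃ R t T' L, S.Cfm Q R T t T' L ∧
        (Cnt Q ∨ (∀ A, Q.fld A → Scl Q A) → S.Full Q R t L)) ∧
    ∃ (H : Type) (_ : NormedAddCommGroup H) (_ : InnerProductSpace ℂ H) (_ : CompleteSpace H)
      (K : Frame H) (Q R : Theory K) (T : Fin 4 → Fin 4 → Fld H) (J : Fin 4 → Fld H)
      (N : Set V → VonNeumannAlgebra H), S.Hys Q T ∧ Vir Q T J ∧ S.IVac K ∧ Uniq K ∧ S.Fnt Q ∧
      Cnt Q ∧ S.Lcv Q ∧ (∀ A s, Q.fld A → 0 < s → S.Dil Q s A) ∧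
      (Net K N ∧ Aff Q N ∧ Rel Q N ∧ Rec Q N) ∧ (S.EBd Q ∧ S.FBT Q T ∧ S.SL Q T) ∧
      (R.dom = Q.dom ∧ (∀ A, R.fld A → Q.fld A) ∧ S.Fnt R ∧ S.Ana R ∧ S.LEB R Q) ∧
      ∃ f, IsTest f ∧ tr T f K.Ω ≠ 0 :=
  ⟨fun _ _ _ _ _ _ _ => N352.H.nospin, N352.H.wis⟩

end Vale.Agent.Results.P352.A000Conf
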